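import Vale.Agent.P117.K.L.WtB
import Vale.Agent.P106.G.Defs

/-! # REF3 lift: the plank weight integrated in time is at most the tube weight -/

open MeasureTheory Complex Set
open scoped ENNReal NNReal

set_option linter.all false

namespace Vale.Agent.P117.K.Lw

open Vale.Agent.P106.G (E4 LT phk)

/-- the point of `ℝ⁴` with coordinates `(x, t)`: inverse of
`X z = lam (z₁ - 2 s₁ z₃, z₂ - 2 s₂ z₃, q₀ - z₃)`, `T z = lam (q₀ + z₃)`, `q₀ = z₀ - s₁ z₁ - s₂ z₂ + |s|² z₃` -/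
noncomputable def zz (lam s1 s2 t : ℝ) (x : E3) : E4 :=
  !₂[((t + x 2)/2 + s1 * x 0 + s2 * x 1 + (s1 ^ 2 + s2 ^ 2) * ((t - x 2)/2)) / lam,
    (x 0 + 2 * s1 * ((t - x 2)/2)) / lam, (x 1 + 2 * s2 * ((t - x 2)/2)) / lam, ((t - x 2)/2) / lam]

theorem zz_meas (lam s1 s2 : ℝ) (x : E3) : Measurable (fun t : ℝ => zz lam s1 s2 t x) := by
  have : Continuous (fun t : ℝ => zz lam s1 s2 t x) := by
    unfold zz
    refine (PiLp.continuous_toLp 2 _).comp (continuous_pi fun i => ?_)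
    fin_cases i <;> simp <;> fun_prop
  exact this.measurable

theorem LT_zz0 (N : ℕ) (k : ℤ × ℤ) (lam s1 s2 t : ℝ) (x : E3) : LT N k (zz lam s1 s2 t x) 0 =
    ((t + x 2)/2 + (k.1 / N + s1) * x 0 + (k.2 / N + s2) * x 1 + ((k.1 / N + s1) ^ 2 + (k.2 / N + s2) ^ 2) * ((t - x 2)/2)) / lam := by
  have : LT N k (zz lam s1 s2 t x) 0 = ((t + x 2)/2 + s1 * x 0 + s2 * x 1 + (s1 ^ 2 + s2 ^ 2) * ((t - x 2)/2)) / lam
    + (k.1 / N) * ((x 0 + 2 * s1 * ((t - x 2)/2)) / lam) + (k.2 / N) * ((x 1 + 2 * s2 * ((t - x 2)/2)) / lam)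
    + ((k.1 / N) ^ 2 + (k.2 / N) ^ 2) * (((t - x 2)/2) / lam) := rfl
  rw [this]
  ring

theorem LT_zz1 (N : ℕ) (k : ℤ × ℤ) (lam s1 s2 t : ℝ) (x : E3) : LT N k (zz lam s1 s2 t x) 1 =
    (x 0 + 2 * (k.1 / N + s1) * ((t - x 2)/2)) / lam / N := by
  have : LT N k (zz lam s1 s2 t x) 1 = ((x 0 + 2 * s1 * ((t - x 2)/2)) / lam + 2 * (k.1 / N) * (((t - x 2)/2) / lam)) / N := rfl
  rw [this]
  ring

theorem LT_zz2 (N : ℕ) (k : ℤ × ℤ) (lam s1 s2 t : ℝ) (x : E3) : LT N k (zz lam s1 s2 t x) 2 =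
    (x 1 + 2 * (k.2 / N + s2) * ((t - x 2)/2)) / lam / N := by
  have : LT N k (zz lam s1 s2 t x) 2 = ((x 1 + 2 * s2 * ((t - x 2)/2)) / lam + 2 * (k.2 / N) * (((t - x 2)/2) / lam)) / N := rfl
  rw [this]
  ring

theorem LT_zz3 (N : ℕ) (k : ℤ × ℤ) (lam s1 s2 t : ℝ) (x : E3) : LT N k (zz lam s1 s2 t x) 3 =
    ((t - x 2)/2) / lam / N ^ 2 := rfl

/-- the two gauges -/
theorem gauge_bd {N : ℕ} (hN : 1 ≤ N) {k : ℤ × ℤ} (hk : k ∈ grd N) {lam s1 s2 : ℝ} (hl : 0 < lam) (hl2 : lam ≤ 2)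
    (hs1 : |s1| ≤ 1 / N) (hs2 : |s2| ≤ 1 / N) (t : ℝ) (x : E3) :
    |t + (inner ℝ (omv (k.1 / N + s1) (k.2 / N + s2)) x : ℝ)| ≤ 4 * ‖LT N k (zz lam s1 s2 t x)‖ ∧
    gam N k x ≤ 140 * ‖LT N k (zz lam s1 s2 t x)‖ := by
  set L := LT N k (zz lam s1 s2 t x) with hL
  set ℓ := 2 * ‖L‖ with hℓ
  have hN0 : (0:ℝ) < N := by exact_mod_cast hN
  have hN1 : (1:ℝ) ≤ N := by exact_mod_cast hN
  have hc : ∀ i, |L i| ≤ ‖L‖ := fun i => by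
    have := PiLp.norm_apply_le L i
    rwa [Real.norm_eq_abs] at this
  have hkk : (0 ≤ k.1 ∧ k.1 < N) ∧ (0 ≤ k.2 ∧ k.2 < N) := by
    have := Finset.mem_product.mp hk
    exact ⟨Finset.mem_Ico.mp this.1, Finset.mem_Ico.mp this.2⟩
  have hb : ∀ (m : ℤ) (s : ℝ), 0 ≤ m → m < N → |s| ≤ 1 / N → |(m:ℝ) / N + s| ≤ 1 := by
    intro m s h0 h1 hs
    have hs' := abs_le.mp hs
    have h0' : (0:ℝ) ≤ m := by exact_mod_cast h0
    have h1' : (m:ℝ) + 1 ≤ N := by exact_mod_cast h1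
    have h2 : (m:ℝ) / N + 1 / N ≤ 1 := by rw [← add_div, div_le_one hN0]; exact h1'
    have h3 : 0 ≤ (m:ℝ) / N := by positivity
    have h4 : 1 / (N:ℝ) ≤ 1 := by rw [div_le_one hN0]; exact hN1
    apply abs_le.mpr
    constructor <;> linarith
  have hw1 := hb k.1 s1 hkk.1.1 hkk.1.2 hs1
  have hw2 := hb k.2 s2 hkk.2.1 hkk.2.2 hs2
  have hlam : ∀ y : ℝ, |y / lam| ≤ ‖L‖ → |y| ≤ ℓ := by
    intro y hy
    rw [abs_div, abs_of_pos hl, div_le_iff₀ hl] at hy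
    have := norm_nonneg L
    nlinarith
  have h0 : |(t + x 2)/2 + (k.1 / N + s1) * x 0 + (k.2 / N + s2) * x 1 + ((k.1 / N + s1) ^ 2 + (k.2 / N + s2) ^ 2) * ((t - x 2)/2)| ≤ ℓ := by
    apply hlam
    rw [← LT_zz0]
    exact hc 0
  have h1 : |x 0 + 2 * (k.1 / N + s1) * ((t - x 2)/2)| ≤ N * ℓ := by
    have := hc 1
    rw [hL, LT_zz1, abs_div, abs_of_pos hN0, div_le_iff₀ hN0] at this
    rw [abs_div, abs_of_pos hl, div_le_iff₀ hl] at this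
    have h := norm_nonneg L
    rw [hℓ]
    calc _ ≤ ‖L‖ * N * lam := this
      _ ≤ ‖L‖ * N * 2 := by gcongr
      _ = _ := by ring
  have h2 : |x 1 + 2 * (k.2 / N + s2) * ((t - x 2)/2)| ≤ N * ℓ := by
    have := hc 2
    rw [hL, LT_zz2, abs_div, abs_of_pos hN0, div_le_iff₀ hN0] at this
    rw [abs_div, abs_of_pos hl, div_le_iff₀ hl] at this
    have h := norm_nonneg L
    rw [hℓ]
    calc _ ≤ ‖L‖ * N * lam := this
      _ ≤ ‖L‖ * N * 2 := by gcongr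
      _ = _ := by ring
  have h3 : |(t - x 2)/2| ≤ (N:ℝ) ^ 2 * ℓ := by
    have := hc 3
    have hN2 : (0:ℝ) < (N:ℝ) ^ 2 := by positivity
    rw [hL, LT_zz3, abs_div, abs_of_pos hN2, div_le_iff₀ hN2] at this
    rw [abs_div, abs_of_pos hl, div_le_iff₀ hl] at this
    have h := norm_nonneg L
    rw [hℓ]
    calc _ ≤ ‖L‖ * (N:ℝ) ^ 2 * lam := this
      _ ≤ ‖L‖ * (N:ℝ) ^ 2 * 2 := by gcongr
      _ = _ := by ring
  constructor
  · have := tau_bd x rfl h0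
    rw [hℓ] at this
    linarith
  · have hg := gam_bd hN1 hw1 hw2 x h0 h1 h2 h3
    have hom : ‖omv (k.1 / N + s1) (k.2 / N + s2) - om N k‖ ≤ 3 / N := by
      apply le_of_sq_le_sq _ (by positivity)
      rw [om, omv_sub]
      have e1 : ((k.1:ℝ) / N + s1 - k.1 / N) = s1 := by ring
      have e2 : ((k.2:ℝ) / N + s2 - k.2 / N) = s2 := by ring
      rw [e1, e2]
      have a1 : s1 ^ 2 ≤ (1/N) ^ 2 := sq_le_sq' (by linarith [(abs_le.mp hs1).1]) (abs_le.mp hs1).2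
      have a2 : s2 ^ 2 ≤ (1/N) ^ 2 := sq_le_sq' (by linarith [(abs_le.mp hs2).1]) (abs_le.mp hs2).2
      have hD1 : 1 ≤ (1 + ((k.1:ℝ) / N + s1) ^ 2 + ((k.2:ℝ) / N + s2) ^ 2) := by nlinarith [sq_nonneg ((k.1:ℝ) / N + s1), sq_nonneg ((k.2:ℝ) / N + s2)]
      have hD2 : 1 ≤ (1 + ((k.1:ℝ) / N) ^ 2 + ((k.2:ℝ) / N) ^ 2) := by nlinarith [sq_nonneg ((k.1:ℝ) / N), sq_nonneg ((k.2:ℝ) / N)]
      have hD : 1 ≤ (1 + ((k.1:ℝ) / N + s1) ^ 2 + ((k.2:ℝ) / N + s2) ^ 2) * (1 + ((k.1:ℝ) / N) ^ 2 + ((k.2:ℝ) / N) ^ 2) := by nlinarith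
      calc 4 * (s1 ^ 2 + s2 ^ 2) / ((1 + ((k.1:ℝ) / N + s1) ^ 2 + ((k.2:ℝ) / N + s2) ^ 2) * (1 + ((k.1:ℝ) / N) ^ 2 + ((k.2:ℝ) / N) ^ 2))
          ≤ 4 * (s1 ^ 2 + s2 ^ 2) := div_le_self (by positivity) hD
        _ ≤ (3 / N) ^ 2 := by
            have : (3 / (N:ℝ)) ^ 2 = 9 * (1 / N) ^ 2 := by ring
            rw [this]
            have := sq_nonneg (1 / (N:ℝ))
            linarith
    have hsh := gam_shift (D := 3) hN1 (omv_norm _ _) (e' := om N k) (omv_norm _ _) hom x (A := 6 * ℓ) (B := 12 * ℓ)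
      (by linarith [hg.1]) (by linarith [hg.2])
    have : gam N k x ≤ 2 * (6 * ℓ) + (3 + 1) * (12 * ℓ) := hsh
    have h := norm_nonneg L
    rw [hℓ] at this
    linarith

theorem lint_inv_sq (c : ℝ) : ∫⁻ t : ℝ, ENNReal.ofReal ((1 + (t + c) ^ 2)⁻¹) = ENNReal.ofReal Real.pi := by
  rw [lintegral_add_right_eq_self (fun t : ℝ => ENNReal.ofReal ((1 + t ^ 2)⁻¹)) c,
    ← ofReal_integral_eq_lintegral_ofReal integrable_inv_one_add_sq (Filter.Eventually.of_forall fun t => by positivity),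
    integral_univ_inv_one_add_sq]

/-- [P3] the plank weight integrated in time -/
theorem wt_c {Λ lam : ℝ} (hΛ : 1 ≤ Λ) (hl : 0 < lam) (hl2 : lam ≤ 2) (M : ℕ)
    {N : ℕ} (hN : 1 ≤ N) {k : ℤ × ℤ} (hk : k ∈ grd N) {s1 s2 : ℝ} (hs1 : |s1| ≤ 1 / N) (hs2 : |s2| ≤ 1 / N) (x : E3) :
      ∫⁻ t, phk Λ (M + 2) N k (zz lam s1 s2 t x) ≤ ENNReal.ofReal ((140 * Λ) ^ (M + 2) * Real.pi) * Phs M N k x := by
  have hN0 : (0:ℝ) < N := by exact_mod_cast hN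
  have hΛ0 : 0 < Λ := by linarith
  have hγ0 : 0 ≤ gam N k x := by unfold gam; positivity
  set c := (inner ℝ (omv (k.1 / N + s1) (k.2 / N + s2)) x : ℝ) with hc
  have hpt : ∀ t, phk Λ (M + 2) N k (zz lam s1 s2 t x) ≤
      ENNReal.ofReal (((N:ℝ) ^ 4)⁻¹ * ((140 * Λ) ^ (M + 2) * ((1 + gam N k x) ^ M)⁻¹)) * ENNReal.ofReal ((1 + (t + c) ^ 2)⁻¹) := by
    intro t
    obtain ⟨g1, g2⟩ := gauge_bd hN hk hl hl2 hs1 hs2 t x
    set L := LT N k (zz lam s1 s2 t x) with hL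
    have hn := norm_nonneg L
    have k1 : 1 + |t + c| ≤ (140 * Λ) * (1 + ‖L‖ / Λ) := by
      have e : (140 * Λ) * (1 + ‖L‖ / Λ) = 140 * Λ + 140 * ‖L‖ := by field_simp
      rw [e]
      linarith
    have k2 : 1 + gam N k x ≤ (140 * Λ) * (1 + ‖L‖ / Λ) := by
      have e : (140 * Λ) * (1 + ‖L‖ / Λ) = 140 * Λ + 140 * ‖L‖ := by field_simp
      rw [e]
      linarith
    have k3 : 1 + (t + c) ^ 2 ≤ (1 + |t + c|) ^ 2 := by
      have h1 := abs_nonneg (t + c)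
      have h2 := sq_abs (t + c)
      nlinarith
    have k4 : (1 + gam N k x) ^ M * (1 + (t + c) ^ 2) ≤ (140 * Λ) ^ (M + 2) * (1 + ‖L‖ / Λ) ^ (M + 2) := by
      rw [← mul_pow, pow_add]
      apply mul_le_mul (pow_le_pow_left₀ (by positivity) k2 M) _ (by positivity) (by positivity)
      exact k3.trans (pow_le_pow_left₀ (by positivity) k1 2)
    unfold phk
    rw [← hL, ← ENNReal.ofReal_mul (by positivity)]
    apply ENNReal.ofReal_le_ofReal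
    rw [mul_assoc, mul_assoc]
    apply mul_le_mul_of_nonneg_left _ (by positivity)
    have hA : 0 < (1 + ‖L‖ / Λ) ^ (M + 2) := by positivity
    have hB : 0 < (1 + gam N k x) ^ M * (1 + (t + c) ^ 2) := by positivity
    rw [← mul_inv, inv_eq_one_div, inv_eq_one_div, mul_one_div, div_le_div_iff₀ hA hB, one_mul]
    exact k4
  calc ∫⁻ t, phk Λ (M + 2) N k (zz lam s1 s2 t x)
      ≤ ∫⁻ t, ENNReal.ofReal (((N:ℝ) ^ 4)⁻¹ * ((140 * Λ) ^ (M + 2) * ((1 + gam N k x) ^ M)⁻¹)) * ENNReal.ofReal ((1 + (t + c) ^ 2)⁻¹) :=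
        lintegral_mono hpt
    _ = ENNReal.ofReal (((N:ℝ) ^ 4)⁻¹ * ((140 * Λ) ^ (M + 2) * ((1 + gam N k x) ^ M)⁻¹)) * ENNReal.ofReal Real.pi := by
        rw [lintegral_const_mul' _ _ ENNReal.ofReal_ne_top, lint_inv_sq]
    _ = _ := by
        unfold Phs
        rw [← ENNReal.ofReal_mul (by positivity), ← ENNReal.ofReal_mul (by positivity)]
        congr 1
        ring

/-- [P3] the plank weight integrated in time -/
theorem wt {Λ lam : ℝ} (hΛ : 1 ≤ Λ) (hl : 0 < lam) (hl2 : lam ≤ 2) (M : ℕ) : ∃ C : ℝ, 0 ≤ C ∧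
    ∀ (N : ℕ), 1 ≤ N → ∀ k ∈ grd N, ∀ s1 s2 : ℝ, |s1| ≤ 1 / N → |s2| ≤ 1 / N → ∀ x : E3,
      ∫⁻ t, phk Λ (M + 2) N k (zz lam s1 s2 t x) ≤ ENNReal.ofReal C * Phs M N k x :=
  ⟨(140 * Λ) ^ (M + 2) * Real.pi, by positivity, fun N hN k hk s1 s2 hs1 hs2 x => wt_c hΛ hl hl2 M hN hk hs1 hs2 x⟩

end Vale.Agent.P117.K.Lw
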