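import Vale.Agent.P117.K.Defs

/-! # REF3 lift: comparison of the plank gauge on the cone with the tube gauge (real inequalities) -/

open MeasureTheory Complex Set
open scoped ENNReal NNReal

set_option linter.all false

namespace Vale.Agent.P117.K.Lw

theorem omv0 (a b : ℝ) : omv a b 0 = 2 * a / (1 + a ^ 2 + b ^ 2) := rfl
theorem omv1 (a b : ℝ) : omv a b 1 = 2 * b / (1 + a ^ 2 + b ^ 2) := rfl
theorem omv2 (a b : ℝ) : omv a b 2 = (1 - a ^ 2 - b ^ 2) / (1 + a ^ 2 + b ^ 2) := rfl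

theorem inner_omv (a b : ℝ) (x : E3) :
    (inner ℝ (omv a b) x : ℝ) = (2 * a * x 0 + 2 * b * x 1 + (1 - a ^ 2 - b ^ 2) * x 2) / (1 + a ^ 2 + b ^ 2) := by
  have hD : (0:ℝ) < 1 + a ^ 2 + b ^ 2 := by positivity
  rw [PiLp.inner_apply, Fin.sum_univ_three]
  simp only [RCLike.inner_apply, conj_trivial, omv0, omv1, omv2]
  field_simp

theorem sqn (y : E3) : ‖y‖ ^ 2 = y 0 ^ 2 + y 1 ^ 2 + y 2 ^ 2 := by
  rw [EuclideanSpace.real_norm_sq_eq, Fin.sum_univ_three]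

/-- reflection identity -/
theorem perp_norm (a b : ℝ) (x : E3) :
    let s := (inner ℝ (omv a b) x : ℝ)
    ‖x - s • omv a b‖ ^ 2 = (x 0 - a * (s + x 2)) ^ 2 + (x 1 - b * (s + x 2)) ^ 2 := by
  intro s
  have hD : (0:ℝ) < 1 + a ^ 2 + b ^ 2 := by positivity
  have hs : s = (2 * a * x 0 + 2 * b * x 1 + (1 - a ^ 2 - b ^ 2) * x 2) / (1 + a ^ 2 + b ^ 2) := inner_omv a b x
  rw [sqn]
  have e0 : (x - s • omv a b) 0 = x 0 - s * (2 * a / (1 + a ^ 2 + b ^ 2)) := rfl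
  have e1 : (x - s • omv a b) 1 = x 1 - s * (2 * b / (1 + a ^ 2 + b ^ 2)) := rfl
  have e2 : (x - s • omv a b) 2 = x 2 - s * ((1 - a ^ 2 - b ^ 2) / (1 + a ^ 2 + b ^ 2)) := rfl
  rw [e0, e1, e2, hs]
  field_simp
  ring

/-- chordal distance -/
theorem omv_sub (a b a' b' : ℝ) :
    ‖omv a b - omv a' b'‖ ^ 2 = 4 * ((a - a') ^ 2 + (b - b') ^ 2) / ((1 + a ^ 2 + b ^ 2) * (1 + a' ^ 2 + b' ^ 2)) := by
  have hD : (0:ℝ) < 1 + a ^ 2 + b ^ 2 := by positivity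
  have hD' : (0:ℝ) < 1 + a' ^ 2 + b' ^ 2 := by positivity
  rw [sqn]
  have e0 : (omv a b - omv a' b') 0 = 2 * a / (1 + a ^ 2 + b ^ 2) - 2 * a' / (1 + a' ^ 2 + b' ^ 2) := rfl
  have e1 : (omv a b - omv a' b') 1 = 2 * b / (1 + a ^ 2 + b ^ 2) - 2 * b' / (1 + a' ^ 2 + b' ^ 2) := rfl
  have e2 : (omv a b - omv a' b') 2 = (1 - a ^ 2 - b ^ 2) / (1 + a ^ 2 + b ^ 2) - (1 - a' ^ 2 - b' ^ 2) / (1 + a' ^ 2 + b' ^ 2) := rfl
  rw [e0, e1, e2]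
  field_simp
  ring

theorem omv_norm (a b : ℝ) : ‖omv a b‖ = 1 := by
  have hD : (0:ℝ) < 1 + a ^ 2 + b ^ 2 := by positivity
  have h : ‖omv a b‖ ^ 2 = 1 := by
    rw [sqn, omv0, omv1, omv2]
    field_simp
    ring
  have h0 : 0 ≤ ‖omv a b‖ := norm_nonneg _
  nlinarith

end Vale.Agent.P117.K.Lw
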