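import Vale.Agent.P117.K.L.WtA

/-! # REF3 lift: the gauge inequality -/

open MeasureTheory Complex Set
open scoped ENNReal NNReal

set_option linter.all false

namespace Vale.Agent.P117.K.Lw

/-- the time variable shifted to the cone -/
theorem tau_bd {w1 w2 t P0 ℓ : ℝ} (x : E3)
    (hP0 : P0 = (t + x 2)/2 + w1 * x 0 + w2 * x 1 + (w1 ^ 2 + w2 ^ 2) * ((t - x 2)/2)) (h0 : |P0| ≤ ℓ) :
    |t + (inner ℝ (omv w1 w2) x : ℝ)| ≤ 2 * ℓ := by
  have hD : (0:ℝ) < 1 + w1 ^ 2 + w2 ^ 2 := by positivity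
  have e : t + (inner ℝ (omv w1 w2) x : ℝ) = 2 * P0 / (1 + w1 ^ 2 + w2 ^ 2) := by
    rw [inner_omv, hP0]
    field_simp
    ring
  rw [e, abs_div, abs_mul, abs_of_pos hD, abs_two, div_le_iff₀ hD]
  have : 0 ≤ ℓ := (abs_nonneg _).trans h0
  nlinarith [sq_nonneg w1, sq_nonneg w2]

/-- tube gauge in terms of the plank gauge -/
theorem gam_bd {N w1 w2 t ℓ : ℝ} (hN : 1 ≤ N) (hw1 : |w1| ≤ 1) (hw2 : |w2| ≤ 1) (x : E3)
    (h0 : |(t + x 2)/2 + w1 * x 0 + w2 * x 1 + (w1 ^ 2 + w2 ^ 2) * ((t - x 2)/2)| ≤ ℓ)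
    (h1 : |x 0 + 2 * w1 * ((t - x 2)/2)| ≤ N * ℓ) (h2 : |x 1 + 2 * w2 * ((t - x 2)/2)| ≤ N * ℓ)
    (h3 : |(t - x 2)/2| ≤ N ^ 2 * ℓ) :
    ‖x - (inner ℝ (omv w1 w2) x : ℝ) • omv w1 w2‖ ≤ 6 * N * ℓ ∧ |(inner ℝ (omv w1 w2) x : ℝ)| ≤ 12 * N ^ 2 * ℓ := by
  set s := (inner ℝ (omv w1 w2) x : ℝ) with hs
  have hD : (0:ℝ) < 1 + w1 ^ 2 + w2 ^ 2 := by positivity
  have hℓ : 0 ≤ ℓ := (abs_nonneg _).trans h0
  have hτ : |t + s| ≤ 2 * ℓ := tau_bd x rfl h0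
  set a := s + x 2 with ha
  -- a = τ - 2 z₃
  have ea : a = (t + s) - 2 * ((t - x 2)/2) := by rw [ha]; ring
  have hNN : N ≤ N ^ 2 := by nlinarith
  have hNℓ : ℓ ≤ N * ℓ := by nlinarith
  have hN2ℓ : N * ℓ ≤ N ^ 2 * ℓ := mul_le_mul_of_nonneg_right hNN hℓ
  have habs : |a| ≤ 4 * N ^ 2 * ℓ := by
    have h3' := abs_le.mp h3
    have hτ' := abs_le.mp hτ
    rw [ea]
    apply abs_le.mpr
    constructor <;> linarith
  have hw1' := abs_le.mp hw1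
  have hw2' := abs_le.mp hw2
  have q1 : |x 0 - w1 * a| ≤ 3 * N * ℓ := by
    have e : x 0 - w1 * a = (x 0 + 2 * w1 * ((t - x 2)/2)) - w1 * (t + s) := by rw [ea]; ring
    have h : |w1 * (t + s)| ≤ 2 * ℓ := by
      rw [abs_mul]
      calc |w1| * |t + s| ≤ 1 * (2 * ℓ) := mul_le_mul hw1 hτ (abs_nonneg _) zero_le_one
        _ = 2 * ℓ := one_mul _
    rw [e]
    have := abs_sub (x 0 + 2 * w1 * ((t - x 2)/2)) (w1 * (t + s))
    linarith
  have q2 : |x 1 - w2 * a| ≤ 3 * N * ℓ := by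
    have e : x 1 - w2 * a = (x 1 + 2 * w2 * ((t - x 2)/2)) - w2 * (t + s) := by rw [ea]; ring
    have h : |w2 * (t + s)| ≤ 2 * ℓ := by
      rw [abs_mul]
      calc |w2| * |t + s| ≤ 1 * (2 * ℓ) := mul_le_mul hw2 hτ (abs_nonneg _) zero_le_one
        _ = 2 * ℓ := one_mul _
    rw [e]
    have := abs_sub (x 1 + 2 * w2 * ((t - x 2)/2)) (w2 * (t + s))
    linarith
  have hperp := perp_norm w1 w2 x
  simp only at hperp
  rw [← hs, ← ha] at hperp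
  have hNℓ0 : 0 ≤ N * ℓ := by positivity
  have y1 : ‖x - s • omv w1 w2‖ ≤ 6 * N * ℓ := by
    have hn := norm_nonneg (x - s • omv w1 w2)
    have b1 : (x 0 - w1 * a) ^ 2 ≤ (3 * N * ℓ) ^ 2 := sq_le_sq' (abs_le.mp q1).1 (abs_le.mp q1).2
    have b2 : (x 1 - w2 * a) ^ 2 ≤ (3 * N * ℓ) ^ 2 := sq_le_sq' (abs_le.mp q2).1 (abs_le.mp q2).2
    apply le_of_sq_le_sq _ (by positivity)
    rw [hperp]
    nlinarith
  refine ⟨y1, ?_⟩
  -- s = w·q + (1+|w|²) a / 2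
  have es : s = w1 * (x 0 - w1 * a) + w2 * (x 1 - w2 * a) + (1 + w1 ^ 2 + w2 ^ 2) * a / 2 := by
    have hs' : s * (1 + w1 ^ 2 + w2 ^ 2) = 2 * w1 * x 0 + 2 * w2 * x 1 + (1 - w1 ^ 2 - w2 ^ 2) * x 2 := by
      rw [hs, inner_omv]
      field_simp
    rw [ha]
    linarith [hs']
  have hw1s : w1 ^ 2 ≤ 1 := by nlinarith
  have hw2s : w2 ^ 2 ≤ 1 := by nlinarith
  have c1 : |w1 * (x 0 - w1 * a)| ≤ 3 * N * ℓ := by
    rw [abs_mul]
    calc |w1| * |x 0 - w1 * a| ≤ 1 * (3 * N * ℓ) := mul_le_mul hw1 q1 (abs_nonneg _) zero_le_one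
      _ = _ := one_mul _
  have c2 : |w2 * (x 1 - w2 * a)| ≤ 3 * N * ℓ := by
    rw [abs_mul]
    calc |w2| * |x 1 - w2 * a| ≤ 1 * (3 * N * ℓ) := mul_le_mul hw2 q2 (abs_nonneg _) zero_le_one
      _ = _ := one_mul _
  have c3 : |(1 + w1 ^ 2 + w2 ^ 2) * a / 2| ≤ 6 * N ^ 2 * ℓ := by
    rw [abs_div, abs_mul, abs_of_pos hD, abs_two]
    have : (1 + w1 ^ 2 + w2 ^ 2) * |a| ≤ 3 * (4 * N ^ 2 * ℓ) :=
      mul_le_mul (by linarith) habs (abs_nonneg _) (by norm_num)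
    linarith
  rw [es]
  have t1 := abs_add_le (w1 * (x 0 - w1 * a) + w2 * (x 1 - w2 * a)) ((1 + w1 ^ 2 + w2 ^ 2) * a / 2)
  have t2 := abs_add_le (w1 * (x 0 - w1 * a)) (w2 * (x 1 - w2 * a))
  linarith

/-- change of direction by `O(1/N)` in the tube gauge -/
theorem gam_shift {N D : ℝ} (hN : 1 ≤ N) {e e' : E3} (he : ‖e‖ = 1) (he' : ‖e'‖ = 1) (hD : ‖e - e'‖ ≤ D / N) (x : E3) {A B : ℝ}
    (hA : ‖x - (inner ℝ e x : ℝ) • e‖ ≤ A * N) (hB : |(inner ℝ e x : ℝ)| ≤ B * N ^ 2) :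
    ‖x - (inner ℝ e' x : ℝ) • e'‖ / N + |(inner ℝ e' x : ℝ)| / N ^ 2 ≤ 2 * A + (D + 1) * B := by
  have hN0 : 0 < N := by linarith
  set s := (inner ℝ e x : ℝ) with hs
  set s' := (inner ℝ e' x : ℝ) with hs'
  have hA0 : 0 ≤ A := by
    have := (norm_nonneg _).trans hA
    exact nonneg_of_mul_nonneg_left this hN0
  have hD0 : 0 ≤ D := by
    have := (norm_nonneg _).trans hD
    rw [le_div_iff₀ hN0, zero_mul] at this
    exact this
  have hB0 : 0 ≤ B := by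
    have := (abs_nonneg _).trans hB
    exact nonneg_of_mul_nonneg_left this (by positivity)
  -- minimality of the projection
  have hmin : ‖x - s' • e'‖ ≤ ‖x - s • e'‖ := by
    apply le_of_sq_le_sq _ (norm_nonneg _)
    rw [norm_sub_sq_real, norm_sub_sq_real, norm_smul, norm_smul, he', inner_smul_right, inner_smul_right, real_inner_comm,
      ← hs', Real.norm_eq_abs, Real.norm_eq_abs, mul_one, mul_one, sq_abs, sq_abs]
    nlinarith [sq_nonneg (s - s')]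
  have h1 : ‖x - s • e'‖ ≤ A * N + B * N ^ 2 * (D / N) := by
    have : x - s • e' = (x - s • e) + s • (e - e') := by rw [smul_sub]; abel
    rw [this]
    refine (norm_add_le _ _).trans (add_le_add hA ?_)
    rw [norm_smul, Real.norm_eq_abs]
    exact mul_le_mul hB hD (norm_nonneg _) (by positivity)
  have h2 : |s'| ≤ A * N + B * N ^ 2 := by
    have hx : ‖x‖ ≤ A * N + B * N ^ 2 := by
      have : x = (x - s • e) + s • e := by abel
      calc ‖x‖ = ‖(x - s • e) + s • e‖ := by rw [← this]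
        _ ≤ ‖x - s • e‖ + ‖s • e‖ := norm_add_le _ _
        _ ≤ A * N + B * N ^ 2 := by
          rw [norm_smul, he, mul_one, Real.norm_eq_abs]
          exact add_le_add hA hB
    calc |s'| ≤ ‖e'‖ * ‖x‖ := abs_real_inner_le_norm _ _
      _ = ‖x‖ := by rw [he', one_mul]
      _ ≤ _ := hx
  have k1 : ‖x - s' • e'‖ / N ≤ A + B * D := by
    rw [div_le_iff₀ hN0]
    refine (hmin.trans h1).trans (le_of_eq ?_)
    field_simp
  have k2 : |s'| / N ^ 2 ≤ A + B := by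
    rw [div_le_iff₀ (by positivity)]
    refine h2.trans ?_
    have : A * N ≤ A * N ^ 2 := mul_le_mul_of_nonneg_left (by nlinarith) hA0
    linarith
  linarith

end Vale.Agent.P117.K.Lw
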